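import Vale.Agent.P372.Full.State
import Vale.Agent.P372.Full.Family
import Vale.Agent.P372.Full.Kraus
import Vale.Agent.P372.Protocol

open Matrix Finset
open scoped ComplexOrder ENNReal

namespace Vale.Agent.Results.P372.EntangledZeroKey

open Vale.Agent.Results.P372.IndividualMeasurements
open Vale.Agent.P372
open Vale.Agent.P372.Link

/-- Some entangled state has no distillable key. -/
theorem result : ∃ (d : ℕ) (ρ : Matrix (Fin d × Fin d) (Fin d × Fin d) ℂ),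
    IsState ρ ∧ ¬ IsSep ρ ∧
    (∃ R : Matrix (Fin d × Fin d) (Fin d × Fin d) ℂ, R * Rᴴ = ρ) ∧
    ∀ (ε : Type) [Fintype ε] [DecidableEq ε] (R : Matrix (Fin d × Fin d) ε ℂ), R * Rᴴ = ρ →
      (∀ (n ℓ : ℕ) (P : Lopc.Prot ℓ (d ^ n) (d ^ n)) (δ : ℝ),
        1 ≤ ℓ → Lopc.HasError R P δ → 1 / 2 ≤ δ) ∧
      Lopc.KD R = 0 := by
  obtain ⟨C, hC0, hfam⟩ := Full.exists_family
  obtain ⟨d, U, K, hd, hK1, hKd, hU, hC, hNp, hNm⟩ :=
    hfam (1 / (2 * (12000 * C ^ 2 + 1))) (by positivity)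
  obtain ⟨D, e, J, J', c, hc, hJ, hJt, hJ', hJt', hst, hsep⟩ :=
    Full.entangled_linked hC0 hd U hK1 hKd hU hC hNp hNm
  set ρ := ((c : ℂ) • Full.linkOp J J').submatrix (e.prodCongr e) (e.prodCongr e) with hρ
  have hst' : IsState ρ := hst
  refine ⟨D, ρ, hst', hsep, ?_, fun ε _ _ R hR => ?_⟩
  · obtain ⟨X, hX⟩ := psd_factor hst'.1
    exact ⟨Xᴴ, by rw [conjTranspose_conjTranspose, ← hX]⟩
  set f := e.prodCongr e with hf
  obtain ⟨K₁, hK₁⟩ := Full.Kraus.exists_kraus (hJ.submatrix f)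
  obtain ⟨L₁, hL₁⟩ := Full.Kraus.exists_kraus
    ((hJt.submatrix f : (Full.ptr (J.submatrix f f)).PosSemidef))
  obtain ⟨K₂, hK₂⟩ := Full.Kraus.exists_kraus (hJ'.submatrix f)
  obtain ⟨L₂, hL₂⟩ := Full.Kraus.exists_kraus
    ((hJt'.submatrix f : (Full.ptr (J'.submatrix f f)).PosSemidef))
  let g := (Fintype.equivFin (Fin D × Fin D)).symm
  refine Lopc.noKey_of_link (fun j => K₁ (g j)) (fun j => K₂ (g j)) (fun j => L₁ (g j))
    (fun j => L₂ (g j)) ?_ ?_ (τ := Full.Kraus.omegaOp (Fin D) (c : ℂ))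
    (Full.Kraus.omegaOp_psd _ (by exact_mod_cast hc)) R ?_
  · intro i p i' q; rw [Full.Kraus.coef_equiv, Full.Kraus.coef_equiv, hK₁, hL₁]; rfl
  · intro i p i' q; rw [Full.Kraus.coef_equiv, Full.Kraus.coef_equiv, hK₂, hL₂]; rfl
  · rw [hR]
    ext x y
    simp only [Full.Kraus.channel_omega, Full.Kraus.coef_equiv, hK₁, hK₂, hρ, Matrix.submatrix_apply,
      Matrix.smul_apply, smul_eq_mul, Full.linkOp, Matrix.of_apply, hf, Equiv.prodCongr_apply,
      Prod.map_apply]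
    congr 1
    rw [← e.sum_comp]
    exact sum_congr rfl fun p _ => (e.sum_comp _).symm

end Vale.Agent.Results.P372.EntangledZeroKey
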