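import Vale.Agent.P372.Base

open Matrix Finset
open scoped ComplexOrder

namespace Vale.Agent.Results.P372.IndividualMeasurements

/-- The effects of a protocol: for a transcript `t` and keys `z` of Alice, `z'` of Bob the
effect is the product of `a t z` and `b t z'`. -/
def IsProtocol {α β T K : Type} [Fintype α] [DecidableEq α] [Fintype β] [DecidableEq β]
    [Fintype T] [Fintype K] (a : T → K → Matrix α α ℂ) (b : T → K → Matrix β β ℂ) : Prop :=
  (∀ t z, (a t z).PosSemidef ∧ (b t z).PosSemidef) ∧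
    ∑ t, ∑ z, ∑ z', prodOp (a t z) (b t z') = 1

/-- Bob measures every one of his `m` systems in an orthonormal basis (the columns of `U t k`)
which is determined by the transcript, and classically post-processes the outcomes. -/
def IsBasisMeasurement {β T K : Type} [Fintype β] [DecidableEq β] {m : ℕ}
    (b : T → K → Matrix (Fin m → β) (Fin m → β) ℂ) : Prop :=
  ∀ t, ∃ (U : Fin m → Matrix β β ℂ) (f : K → (Fin m → β) → ℝ),
    (∀ k, U k * (U k)ᴴ = 1) ∧ (∀ z y, 0 ≤ f z y) ∧
    ∀ z x x', b t z x x' =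
      ∑ y : Fin m → β, (f z y : ℂ) * ∏ k, (U k (x k) (y k) * star (U k (x' k) (y k)))

/-- The error of a protocol on the state `R * Rᴴ` with the purification given by `R`, relative
to Eve's ideal states `σ t`: up to a transposition, Eve's unnormalised state for transcript `t`
and keys `z`, `z'` is `Rᴴ * (a t z ⊗ b t z') * R`. -/
noncomputable def keyError {α β T K : Type} [Fintype α] [DecidableEq α] [Fintype β]
    [DecidableEq β] [Fintype T] [Fintype K] [DecidableEq K]
    (a : T → K → Matrix α α ℂ) (b : T → K → Matrix β β ℂ)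
    (R : Matrix (α × β) (α × β) ℂ) (σ : T → Matrix (α × β) (α × β) ℂ) : ℝ :=
  ∑ t, ∑ z, ∑ z', traceNorm (Rᴴ * prodOp (a t z) (b t z') * R -
    if z = z' then ((Fintype.card K : ℂ))⁻¹ • σ t else 0)

/-- Product distributions given the transcript are far from an ideal key. -/
lemma product_far {K : Type} [Fintype K] [DecidableEq K] [Nonempty K] (u v : K → ℝ)
    (hu : ∀ z, 0 ≤ u z) (hv : ∀ z, 0 ≤ v z) (s : ℝ) :
    s * (1 - (Fintype.card K : ℝ)⁻¹) ≤
      ∑ z, ∑ z', |u z * v z' - if z = z' then s * (Fintype.card K : ℝ)⁻¹ else 0| := by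
  classical
  set N : ℝ := (Fintype.card K : ℝ) with hN
  obtain ⟨m, -, hm⟩ := exists_max_image (univ : Finset K) u univ_nonempty
  have hNpos : 0 < N := by rw [hN]; exact_mod_cast Fintype.card_pos
  -- pointwise lower bound by a test function
  have key : ∀ z, (if z = m then 0 else s * N⁻¹) - u z * v z * (if z = m then 0 else 1)
      + ∑ z', (if z = z' then 0 else u z * v z') ≤
      ∑ z', |u z * v z' - if z = z' then s * N⁻¹ else 0| := by
    intro z
    have h : ∀ z', (if z = z' then ((if z = m then 0 else s * N⁻¹)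
          - u z * v z * (if z = m then 0 else 1)) else u z * v z') ≤
        |u z * v z' - if z = z' then s * N⁻¹ else 0| := by
      intro z'
      by_cases hz : z = z'
      · subst hz
        by_cases hzm : z = m
        · simp [hzm]
        · simp only [hzm, ↓reduceIte, mul_one]
          rw [abs_sub_comm]; exact le_abs_self _
      · simp only [hz, ↓reduceIte, sub_zero]; exact le_abs_self _
    refine le_trans (le_of_eq ?_) (sum_le_sum (fun z' _ => h z'))
    rw [← add_sum_erase _ _ (mem_univ z), ← add_sum_erase _ _ (mem_univ z)]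
    simp only [↓reduceIte, zero_add]
    congr 1
    refine sum_congr rfl (fun z' hz' => ?_)
    rw [if_neg (fun e => (mem_erase.1 hz').1 e.symm), if_neg (fun e => (mem_erase.1 hz').1 e.symm)]
  refine le_trans ?_ (sum_le_sum (fun z _ => key z))
  have e1 : ∑ z : K, (if z = m then (0:ℝ) else s * N⁻¹) = s * (1 - N⁻¹) := by
    rw [Finset.sum_ite, sum_const_zero, zero_add, sum_const, nsmul_eq_mul]
    rw [filter_ne' (univ : Finset K) m, card_erase_of_mem (mem_univ m), card_univ,
      Nat.cast_sub Fintype.card_pos, ← hN]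
    field_simp
    push_cast
    ring
  rw [sum_add_distrib, sum_sub_distrib, e1]
  -- the diagonal terms away from `m` are dominated by the row of `m`
  have e2 : ∑ z, u z * v z * (if z = m then 0 else 1) ≤
      ∑ z, ∑ z', (if z = z' then 0 else u z * v z') := by
    calc ∑ z, u z * v z * (if z = m then 0 else 1)
        ≤ ∑ z, (if m = z then 0 else u m * v z) := by
          refine sum_le_sum (fun z _ => ?_)
          by_cases hz : z = m
          · simp [hz]
          · simp only [hz, ↓reduceIte, mul_one, Ne.symm hz]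
            exact mul_le_mul_of_nonneg_right (hm z (mem_univ z)) (hv z)
      _ ≤ _ := by
          refine single_le_sum (f := fun z => ∑ z', (if z = z' then 0 else u z * v z'))
            (fun z _ => sum_nonneg (fun z' _ => ?_)) (mem_univ m)
          split
          · exact le_rfl
          · exact mul_nonneg (hu z) (hv z')
  linarith

variable {ι : Type} [Fintype ι] [DecidableEq ι]

lemma psd_entry {M : Matrix ι ι ℂ} (hM : M.PosSemidef) (x y : ι) :
    |(M x y).re| ≤ ((M x x).re + (M y y).re) / 2 := by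
  have hs : (M y x).re = (M x y).re := by
    rw [← hM.1.apply x y]; simp
  have h : ∀ c : ℝ, 0 ≤ (M x x).re + c * (M x y).re + c * (M y x).re + c * c * (M y y).re := by
    intro c
    have hB := hM.conjTranspose_mul_mul_same
      (Matrix.of (fun i (_ : Fin 1) => (if i = x then (1:ℂ) else 0) + (if i = y then (c:ℂ) else 0)))
    have h0 := (Complex.nonneg_iff.1 (hB.diag_nonneg (i := 0))).1
    simp [Matrix.mul_apply, add_mul, mul_add, sum_add_distrib, apply_ite (starRingEnd ℂ),
      Finset.sum_ite_eq', mul_ite, ite_mul] at h0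
    nlinarith [h0]
  have h1 := h 1
  have h2 := h (-1)
  rw [abs_le]
  constructor <;> nlinarith

lemma psd_perm_trace {M : Matrix ι ι ℂ} (hM : M.PosSemidef) (e : Equiv.Perm ι) :
    |∑ x, (M (e x) x).re| ≤ M.trace.re := by
  calc |∑ x, (M (e x) x).re| ≤ ∑ x, |(M (e x) x).re| := abs_sum_le_sum_abs _ _
    _ ≤ ∑ x, ((M (e x) (e x)).re + (M x x).re) / 2 := sum_le_sum (fun x _ => psd_entry hM _ _)
    _ = M.trace.re := by
      rw [← sum_div, sum_add_distrib, Equiv.sum_comp e (fun x => (M x x).re)]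
      simp [Matrix.trace]


section Tools

variable {α β : Type} [Fintype α] [DecidableEq α] [Fintype β] [DecidableEq β] {m : ℕ}

/-- A tensor product of different bipartite operators. -/
def tfam (A : Fin m → Matrix (α × β) (α × β) ℂ) :
    Matrix ((Fin m → α) × (Fin m → β)) ((Fin m → α) × (Fin m → β)) ℂ :=
  fun x y => ∏ k, A k (x.1 k, x.2 k) (y.1 k, y.2 k)

omit [Fintype α] [DecidableEq α] [Fintype β] [DecidableEq β] in
lemma tensorPower_eq (ρ : Matrix (α × β) (α × β) ℂ) :
    tensorPower ρ m = tfam (fun _ : Fin m => ρ) := rfl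

omit [DecidableEq α] [DecidableEq β] in
lemma tfam_mul (A B : Fin m → Matrix (α × β) (α × β) ℂ) :
    tfam A * tfam B = tfam (fun k => A k * B k) := by
  ext x y
  simp only [Matrix.mul_apply, tfam]
  rw [Fintype.prod_sum (fun k p => A k (x.1 k, x.2 k) p * B k p (y.1 k, y.2 k))]
  rw [← Equiv.sum_comp (Equiv.arrowProdEquivProdArrow (Fin m) (fun _ => α) (fun _ => β))]
  exact sum_congr rfl (fun p _ => by simp [prod_mul_distrib, Equiv.arrowProdEquivProdArrow])

omit [Fintype α] [DecidableEq α] [Fintype β] [DecidableEq β] in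
lemma tfam_conj (A : Fin m → Matrix (α × β) (α × β) ℂ) :
    (tfam A)ᴴ = tfam (fun k => (A k)ᴴ) := by
  ext x y
  simp [tfam]

omit [Fintype α] [Fintype β] in
lemma tfam_one : tfam (fun _ : Fin m => (1 : Matrix (α × β) (α × β) ℂ)) = 1 := by
  ext x y
  simp only [tfam, Matrix.one_apply, prod_boole]
  congr 1
  simp [Prod.ext_iff, funext_iff, forall_and]

lemma psd_factor {ι : Type} [Fintype ι] [DecidableEq ι] {A : Matrix ι ι ℂ}
    (h : A.PosSemidef) : ∃ X : Matrix ι ι ℂ, A = Xᴴ * X := by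
  open scoped MatrixOrder in
  obtain ⟨X, hX⟩ := CStarAlgebra.nonneg_iff_eq_star_mul_self.1 h.nonneg
  exact ⟨X, hX⟩

lemma tfam_psd {A : Fin m → Matrix (α × β) (α × β) ℂ} (h : ∀ k, (A k).PosSemidef) :
    (tfam A).PosSemidef := by
  choose X hX using fun k => psd_factor (h k)
  rw [funext hX, ← tfam_mul, ← tfam_conj]
  exact Matrix.posSemidef_conjTranspose_mul_self _

omit [Fintype α] [DecidableEq α] [Fintype β] [DecidableEq β] in
lemma tfam_sum {ι : Type} [Fintype ι] (A : Fin m → ι → Matrix (α × β) (α × β) ℂ) :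
    ∑ w : Fin m → ι, tfam (fun k => A k (w k)) = tfam (fun k => ∑ i, A k i) := by
  ext x y
  simp only [Matrix.sum_apply, tfam]
  rw [Fintype.prod_sum]

lemma psd_trace_mul {ι : Type} [Fintype ι] [DecidableEq ι] {A B : Matrix ι ι ℂ}
    (hA : A.PosSemidef) (hB : B.PosSemidef) : 0 ≤ (A * B).trace := by
  obtain ⟨X, hX⟩ := psd_factor hA
  rw [hX, Matrix.mul_assoc, Matrix.trace_mul_comm]
  exact (hB.mul_mul_conjTranspose_same X).trace_nonneg

/-- A tensor product of operators of one party. -/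
def sfam (A : Fin m → Matrix α α ℂ) : Matrix (Fin m → α) (Fin m → α) ℂ :=
  fun x y => ∏ k, A k (x k) (y k)

lemma sfam_psd {A : Fin m → Matrix α α ℂ} (h : ∀ k, (A k).PosSemidef) :
    (sfam A).PosSemidef := by
  choose X hX using fun k => psd_factor (h k)
  have e : sfam A = (sfam X)ᴴ * sfam X := by
    ext x y
    simp only [sfam, Matrix.mul_apply, conjTranspose_apply, hX, star_prod, ← prod_mul_distrib]
    rw [Fintype.prod_sum]
  rw [e]
  exact Matrix.posSemidef_conjTranspose_mul_self _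

/-- The operator of Alice obtained by contracting Bob's system with the vector `u`. -/
def blk (P : Matrix (α × β) (α × β) ℂ) (u : β → ℂ) : Matrix α α ℂ :=
  fun i j => ∑ p, ∑ q, star (u p) * P (i, p) (j, q) * u q

lemma blk_psd {P : Matrix (α × β) (α × β) ℂ} (h : P.PosSemidef) (u : β → ℂ) :
    (blk P u).PosSemidef := by
  have hb := h.conjTranspose_mul_mul_same
    (Matrix.of fun (x : α × β) (j : α) => if x.1 = j then u x.2 else 0)
  have e : blk P u = (Matrix.of fun (x : α × β) (j : α) => if x.1 = j then u x.2 else 0)ᴴ * P *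
      (Matrix.of fun (x : α × β) (j : α) => if x.1 = j then u x.2 else 0) := by
    ext i j
    simp only [blk, Matrix.mul_apply, conjTranspose_apply, Matrix.of_apply, sum_mul,
      Fintype.sum_prod_type]
    simp [apply_ite (star : ℂ → ℂ), ite_mul, mul_ite, Finset.sum_ite_eq']
    rw [sum_comm]
  rw [e]
  exact hb

/-- `L ⊗ |u⟩⟨u|`. -/
def embed (L : Matrix α α ℂ) (u : β → ℂ) : Matrix (α × β) (α × β) ℂ :=
  fun x y => L x.1 y.1 * (u x.2 * star (u y.2))

omit [DecidableEq β] in
lemma embed_psd {L : Matrix α α ℂ} (h : L.PosSemidef) (u : β → ℂ) :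
    (embed L u).PosSemidef := by
  obtain ⟨X, hX⟩ := psd_factor h
  have e : embed L u = (Matrix.of fun (k : α) (x : α × β) => X k x.1 * star (u x.2))ᴴ *
      (Matrix.of fun (k : α) (x : α × β) => X k x.1 * star (u x.2)) := by
    ext x y
    simp only [embed, Matrix.mul_apply, conjTranspose_apply, Matrix.of_apply, hX, sum_mul]
    refine sum_congr rfl (fun k _ => ?_)
    simp
    ring
  rw [e]
  exact Matrix.posSemidef_conjTranspose_mul_self _

omit [Fintype α] [DecidableEq α] [Fintype β] [DecidableEq β] in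
lemma embed_sub (L L' : Matrix α α ℂ) (u : β → ℂ) :
    embed (L - L') u = embed L u - embed L' u := by
  ext x y; simp [embed, sub_mul]

omit [Fintype α] [DecidableEq α] [DecidableEq β] in
lemma blk_embed (L : Matrix α α ℂ) (u v : β → ℂ) :
    blk (embed L u) v = ((star v ⬝ᵥ u) * (star u ⬝ᵥ v)) • L := by
  ext i j
  simp only [blk, embed, dotProduct, Pi.star_apply, Matrix.smul_apply, smul_eq_mul, sum_mul, mul_sum]
  rw [sum_comm]
  exact sum_congr rfl (fun p _ => sum_congr rfl (fun q _ => by ring))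

omit [Fintype α] [DecidableEq α] [DecidableEq β] in
lemma blk_sub (P Q : Matrix (α × β) (α × β) ℂ) (u : β → ℂ) :
    blk (P - Q) u = blk P u - blk Q u := by
  ext i j
  simp [blk, mul_sub, sub_mul]

omit [Fintype α] [DecidableEq α] [DecidableEq β] in
lemma blk_add (P Q : Matrix (α × β) (α × β) ℂ) (u : β → ℂ) :
    blk (P + Q) u = blk P u + blk Q u := by
  ext i j
  simp [blk, mul_add, add_mul, sum_add_distrib]

omit [Fintype α] [DecidableEq α] [DecidableEq β] in
lemma blk_sum {ι : Type} [Fintype ι] (P : ι → Matrix (α × β) (α × β) ℂ) (u : β → ℂ) :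
    blk (∑ i, P i) u = ∑ i, blk (P i) u := by
  ext i j
  simp only [blk, Matrix.sum_apply, mul_sum, sum_mul]
  exact (sum_congr rfl fun p _ => sum_comm).trans sum_comm

omit [Fintype α] in
lemma blk_smul_one (c : ℂ) {u : β → ℂ} (hu : star u ⬝ᵥ u = 1) :
    blk (c • (1 : Matrix (α × β) (α × β) ℂ)) u = c • 1 := by
  ext i j
  simp only [blk, Matrix.smul_apply, Matrix.one_apply, smul_eq_mul, Prod.mk.injEq]
  by_cases hij : i = j
  · simp only [hij, true_and, ↓reduceIte, mul_one, mul_ite, mul_zero, ite_mul, zero_mul,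
      Finset.sum_ite_eq, mem_univ]
    calc ∑ p, star (u p) * c * u p = c * (star u ⬝ᵥ u) := by
          simp only [dotProduct, Pi.star_apply, mul_sum]
          exact sum_congr rfl (fun p _ => by ring)
      _ = c := by rw [hu, mul_one]
  · simp [hij]

/-- Eve's decomposition of one copy adapted to Bob's basis. -/
def piece (ρ : Matrix (α × β) (α × β) ℂ) (lam : ℝ) (U : Matrix β β ℂ) :
    Option β → Matrix (α × β) (α × β) ℂ
  | none => ρ - ∑ y, embed (blk ρ fun p => U p y) (fun p => U p y) + (lam : ℂ) • 1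
  | some y => embed (blk ρ (fun p => U p y) - (lam : ℂ) • 1) (fun p => U p y)

variable {ρ : Matrix (α × β) (α × β) ℂ} {lam : ℝ} {U : Matrix β β ℂ}

lemma col_dot (hU : U * Uᴴ = 1) (y y' : β) :
    star (fun p => U p y') ⬝ᵥ (fun p => U p y) = if y' = y then 1 else 0 := by
  have h : Uᴴ * U = 1 := mul_eq_one_comm.1 hU
  have := congrFun (congrFun h y') y
  simpa [Matrix.mul_apply, dotProduct, Matrix.one_apply] using this

omit [DecidableEq α] in
lemma sum_embed_smul_one [DecidableEq α] (hU : U * Uᴴ = 1) (c : ℂ) :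
    ∑ y, embed (c • (1 : Matrix α α ℂ)) (fun p => U p y) = c • 1 := by
  ext x y
  simp only [Matrix.sum_apply, embed, ← mul_sum]
  have := congrFun (congrFun hU x.2) y.2
  simp only [Matrix.mul_apply, conjTranspose_apply] at this
  rw [this]
  simp [Matrix.one_apply, Prod.ext_iff, ite_and]
  split_ifs <;> rfl

lemma piece_sum (hU : U * Uᴴ = 1) : ∑ o, piece ρ lam U o = ρ := by
  rw [Fintype.sum_option]
  simp only [piece, embed_sub, sum_sub_distrib, sum_embed_smul_one hU]
  abel

lemma piece_psd (hU : U * Uᴴ = 1) (h1 : (ρ - (lam : ℂ) • 1).PosSemidef)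
    (h2 : ∀ u : β → ℂ, star u ⬝ᵥ u = 1 → (((2 * lam : ℝ) : ℂ) • 1 - blk ρ u).PosSemidef)
    (o : Option β) : (piece ρ lam U o).PosSemidef := by
  have hcol : ∀ y, star (fun p => U p y) ⬝ᵥ (fun p => U p y) = 1 := by
    intro y; simpa using col_dot hU y y
  cases o with
  | none =>
    have e : piece ρ lam U none = (ρ - (lam : ℂ) • 1) +
        ∑ y, embed (((2 * lam : ℝ) : ℂ) • 1 - blk ρ fun p => U p y) (fun p => U p y) := by
      simp only [piece, embed_sub, sum_sub_distrib, sum_embed_smul_one hU]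
      push_cast
      rw [two_mul, add_smul]
      abel
    rw [e]
    exact h1.add (Matrix.posSemidef_sum _ (fun y _ => embed_psd (h2 _ (hcol y)) _))
  | some y =>
    refine embed_psd ?_ _
    have := blk_psd h1 (fun p => U p y)
    rwa [blk_sub, blk_smul_one _ (hcol y)] at this

/-- Alice's operator in a piece. -/
def pieceA (ρ : Matrix (α × β) (α × β) ℂ) (lam : ℝ) (U : Matrix β β ℂ) :
    Option β → Matrix α α ℂ
  | none => (lam : ℂ) • 1
  | some y => blk ρ (fun p => U p y) - (lam : ℂ) • 1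

/-- The outcomes of Bob compatible with a piece. -/
def compat : Option β → β → ℝ
  | none, _ => 1
  | some y, y' => if y = y' then 1 else 0

lemma blk_piece (hU : U * Uᴴ = 1) (o : Option β) (y' : β) :
    blk (piece ρ lam U o) (fun p => U p y') = (compat o y' : ℂ) • pieceA ρ lam U o := by
  have hcol : star (fun p => U p y') ⬝ᵥ (fun p => U p y') = 1 := by
    simpa using col_dot hU y' y'
  cases o with
  | none =>
    simp only [piece, compat, pieceA, blk_add, blk_sub, blk_sum, blk_embed, col_dot hU,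
      blk_smul_one _ hcol]
    simp [ite_mul, ite_smul]
  | some y =>
    simp only [piece, compat, pieceA, blk_embed, col_dot hU]
    by_cases h : y = y'
    · simp [h]
    · simp [h, Ne.symm h]

lemma trace_piece (Pc : Fin m → Matrix (α × β) (α × β) ℂ) (a : Matrix (Fin m → α) (Fin m → α) ℂ)
    (b : Matrix (Fin m → β) (Fin m → β) ℂ) (V : Fin m → Matrix β β ℂ) (f : (Fin m → β) → ℝ)
    (hb : ∀ x x', b x x' =
      ∑ y : Fin m → β, (f y : ℂ) * ∏ k, (V k (x k) (y k) * star (V k (x' k) (y k)))) :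
    (tfam Pc * prodOp a b).trace =
      ∑ y : Fin m → β, (f y : ℂ) * (sfam (fun k => blk (Pc k) fun p => V k p (y k)) * a).trace := by
  simp only [Matrix.trace, Matrix.diag, Matrix.mul_apply, prodOp, hb, sfam, blk,
    Fintype.prod_sum, mul_sum, sum_mul, Fintype.sum_prod_type, prod_mul_distrib, tfam, star_prod]
  rw [sum_comm (s := (univ : Finset (Fin m → β))) (t := (univ : Finset (Fin m → α)))]
  refine sum_congr rfl (fun i _ => ?_)
  rw [sum_comm (s := (univ : Finset (Fin m → β))) (t := (univ : Finset (Fin m → α)))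
    (f := fun (p : Fin m → β) j => ∑ q, ∑ y, _)]
  rw [sum_comm (s := (univ : Finset (Fin m → β))) (t := (univ : Finset (Fin m → α)))]
  refine sum_congr rfl (fun j _ => ?_)
  rw [sum_comm_cycle]
  refine sum_congr rfl (fun y _ => ?_)
  refine sum_congr rfl (fun p _ => sum_congr rfl (fun q _ => ?_))
  ring

end Tools

/-- The bound on the trace norm by the outcomes of a measurement. -/
lemma measured_le_traceNorm {ι κ : Type} [Fintype ι] [DecidableEq ι] [Fintype κ]
    (M : κ → Matrix ι ι ℂ) (hM : ∀ w, (M w).PosSemidef) (hsum : ∑ w, M w = 1)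
    (X : Matrix ι ι ℂ) : ∑ w, |((M w * X).trace).re| ≤ traceNorm X := by
  set H := (Matrix.posSemidef_conjTranspose_mul_self X).1 with hH
  set V : Matrix ι ι ℂ := (H.eigenvectorUnitary : Matrix ι ι ℂ) with hV
  have hVV : Vᴴ * V = 1 := by
    rw [hV, ← star_eq_conjTranspose]; simp
  have hVV' : V * Vᴴ = 1 := mul_eq_one_comm.1 hVV
  have hdiag : Vᴴ * (Xᴴ * X) * V = diagonal (fun i => ((H.eigenvalues i : ℝ) : ℂ)) := by
    have := H.conjStarAlgAut_star_eigenvectorUnitary
    simpa [Unitary.conjStarAlgAut_star_apply, star_eq_conjTranspose, hV, Function.comp_def] using this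
  -- per measurement outcome
  have hw : ∀ w, |((M w * X).trace).re| ≤ ∑ i,
      Real.sqrt ((Vᴴ * M w * V) i i).re * Real.sqrt (((X * V)ᴴ * M w * (X * V)) i i).re := by
    intro w
    obtain ⟨A, hA⟩ := psd_factor (hM w)
    have e : (M w * X).trace = ∑ i, ∑ k, star ((A * V) k i) * (A * X * V) k i := by
      calc (M w * X).trace = ((V * Vᴴ) * (M w * X)).trace := by rw [hVV', Matrix.one_mul]
        _ = ((A * V)ᴴ * (A * X * V)).trace := by
          rw [Matrix.mul_assoc, Matrix.trace_mul_comm, conjTranspose_mul, hA]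
          simp only [Matrix.mul_assoc]
        _ = _ := by
          simp only [Matrix.trace, Matrix.diag]
          exact sum_congr rfl (fun i _ => by rw [Matrix.mul_apply]; rfl)
    have e1 : ∀ i, ((Vᴴ * M w * V) i i).re = ∑ k, ‖(A * V) k i‖ ^ 2 := by
      intro i
      have : Vᴴ * M w * V = (A * V)ᴴ * (A * V) := by
        rw [hA, conjTranspose_mul]; simp only [Matrix.mul_assoc]
      rw [this, Matrix.mul_apply, Complex.re_sum]
      refine sum_congr rfl (fun k _ => ?_)
      rw [Complex.sq_norm, Complex.normSq_apply]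
      simp
    have e2 : ∀ i, (((X * V)ᴴ * M w * (X * V)) i i).re = ∑ k, ‖(A * X * V) k i‖ ^ 2 := by
      intro i
      have : (X * V)ᴴ * M w * (X * V) = (A * X * V)ᴴ * (A * X * V) := by
        rw [hA, Matrix.mul_assoc A X V, conjTranspose_mul A]; simp only [Matrix.mul_assoc]
      rw [this, Matrix.mul_apply, Complex.re_sum]
      refine sum_congr rfl (fun k _ => ?_)
      rw [Complex.sq_norm, Complex.normSq_apply]
      simp
    calc |((M w * X).trace).re| ≤ ‖(M w * X).trace‖ := Complex.abs_re_le_norm _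
      _ ≤ ∑ i, ∑ k, ‖(A * V) k i‖ * ‖(A * X * V) k i‖ := by
        rw [e]
        refine (norm_sum_le _ _).trans (sum_le_sum (fun i _ => ?_))
        refine (norm_sum_le _ _).trans (sum_le_sum (fun k _ => ?_))
        rw [norm_mul, norm_star]
      _ ≤ _ := sum_le_sum (fun i _ => by
        rw [e1, e2]; exact Real.sum_mul_le_sqrt_mul_sqrt _ _ _)
  refine (sum_le_sum (fun w _ => hw w)).trans ?_
  rw [sum_comm]
  refine sum_le_sum (fun i _ => ?_)
  refine (Real.sum_sqrt_mul_sqrt_le univ (fun w => ?_) (fun w => ?_)).trans (le_of_eq ?_)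
  · exact (Complex.nonneg_iff.1 ((hM w).conjTranspose_mul_mul_same V).diag_nonneg).1
  · exact (Complex.nonneg_iff.1 ((hM w).conjTranspose_mul_mul_same (X * V)).diag_nonneg).1
  · have e1 : ∑ w, ((Vᴴ * M w * V) i i).re = 1 := by
      rw [← Complex.re_sum, ← Matrix.sum_apply, ← Matrix.sum_mul, ← Matrix.mul_sum, hsum,
        Matrix.mul_one, hVV, Matrix.one_apply_eq, Complex.one_re]
    have e2 : ∑ w, (((X * V)ᴴ * M w * (X * V)) i i).re = H.eigenvalues i := by
      rw [← Complex.re_sum, ← Matrix.sum_apply, ← Matrix.sum_mul, ← Matrix.mul_sum, hsum,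
        Matrix.mul_one, conjTranspose_mul]
      have : Vᴴ * Xᴴ * (X * V) = Vᴴ * (Xᴴ * X) * V := by simp only [Matrix.mul_assoc]
      rw [this, hdiag, Matrix.diagonal_apply_eq, Complex.ofReal_re]
    rw [e1, e2, Real.sqrt_one, one_mul]

/-- A state whose spectrum is flat enough gives no key when Bob measures basis-wise. -/
lemma key_error_ge {α β T K : Type} [Fintype α] [DecidableEq α] [Fintype β] [DecidableEq β]
    [Fintype T] [Fintype K] [DecidableEq K] [Nonempty K] {m : ℕ}
    (ρ : Matrix (α × β) (α × β) ℂ) (lam : ℝ) (hlam : 0 < lam)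
    (h1 : (ρ - (lam : ℂ) • 1).PosSemidef)
    (h2 : ∀ u : β → ℂ, star u ⬝ᵥ u = 1 → (((2 * lam : ℝ) : ℂ) • 1 - blk ρ u).PosSemidef)
    (a : T → K → Matrix (Fin m → α) (Fin m → α) ℂ) (b : T → K → Matrix (Fin m → β) (Fin m → β) ℂ)
    (hP : IsProtocol a b) (hB : IsBasisMeasurement b)
    (R : Matrix ((Fin m → α) × (Fin m → β)) ((Fin m → α) × (Fin m → β)) ℂ)
    (hR : R * Rᴴ = tensorPower ρ m)
    (σ : T → Matrix ((Fin m → α) × (Fin m → β)) ((Fin m → α) × (Fin m → β)) ℂ)
    (hσ : ∑ t, (σ t).trace = 1) :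
    1 - (Fintype.card K : ℝ)⁻¹ ≤ keyError a b R σ := by
  have hρ : ρ.PosDef := by
    have h : ρ = (ρ - (lam : ℂ) • 1) + (lam : ℂ) • 1 := by abel
    rw [h]
    refine Matrix.PosDef.posSemidef_add h1 (Matrix.PosDef.one.smul ?_)
    exact_mod_cast hlam
  set Ti := tfam (fun _ : Fin m => ρ⁻¹) with hTi
  set Q := Rᴴ * Ti with hQ
  have hRQ : R * Q = 1 := by
    rw [hQ, ← Matrix.mul_assoc, hR, tensorPower_eq, hTi, tfam_mul,
      Matrix.mul_nonsing_inv ρ ((Matrix.isUnit_iff_isUnit_det ρ).1 hρ.isUnit), tfam_one]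
  have hQR : Q * R = 1 := mul_eq_one_comm.1 hRQ
  have key : ∀ t, (σ t).trace.re * (1 - (Fintype.card K : ℝ)⁻¹) ≤
      ∑ z, ∑ z', traceNorm (Rᴴ * prodOp (a t z) (b t z') * R -
        if z = z' then ((Fintype.card K : ℂ))⁻¹ • σ t else 0) := by
    intro t
    obtain ⟨V, f, hV, hf, hb⟩ := hB t
    let Pc : (Fin m → Option β) → Fin m → Matrix (α × β) (α × β) ℂ :=
      fun w k => piece ρ lam (V k) (w k)
    let M : (Fin m → Option β) →
        Matrix ((Fin m → α) × (Fin m → β)) ((Fin m → α) × (Fin m → β)) ℂ :=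
      fun w => Q * tfam (Pc w) * Qᴴ
    have hM : ∀ w, (M w).PosSemidef := fun w =>
      (tfam_psd (fun k => piece_psd (hV k) h1 h2 (w k))).mul_mul_conjTranspose_same Q
    have hMsum : ∑ w, M w = 1 := by
      simp only [M, Pc, ← Matrix.sum_mul, ← Matrix.mul_sum,
        tfam_sum (fun k o => piece ρ lam (V k) o), fun k => piece_sum (ρ := ρ) (lam := lam) (hV k)]
      rw [← tensorPower_eq, ← hR, ← Matrix.mul_assoc, hQR, Matrix.one_mul,
        ← conjTranspose_mul, hQR, conjTranspose_one]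
    let u : (Fin m → Option β) → K → ℝ := fun w z =>
      (sfam (fun k => pieceA ρ lam (V k) (w k)) * a t z).trace.re
    let v : (Fin m → Option β) → K → ℝ := fun w z' =>
      ∑ y : Fin m → β, f z' y * ∏ k, compat (w k) (y k)
    have hpA : ∀ (w : Fin m → Option β) (k : Fin m), (pieceA ρ lam (V k) (w k)).PosSemidef := by
      intro w k
      cases w k with
      | none => exact Matrix.PosSemidef.one.smul (by exact_mod_cast hlam.le)
      | some y =>
        have hcol : star (fun p => V k p y) ⬝ᵥ (fun p => V k p y) = 1 := by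
          simpa using col_dot (hV k) y y
        have := blk_psd h1 (fun p => V k p y)
        rwa [blk_sub, blk_smul_one _ hcol] at this
    have hu : ∀ w z, 0 ≤ u w z := fun w z =>
      (Complex.nonneg_iff.1 (psd_trace_mul (sfam_psd (hpA w)) (hP.1 t z).1)).1
    have hv : ∀ w z', 0 ≤ v w z' := fun w z' => sum_nonneg (fun y _ =>
      mul_nonneg (hf z' y) (prod_nonneg (fun k _ => by
        cases w k <;> simp only [compat] <;> first | exact zero_le_one | (split <;> norm_num))))
    have hval : ∀ w z z', ((M w * (Rᴴ * prodOp (a t z) (b t z') * R)).trace).re =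
        u w z * v w z' := by
      intro w z z'
      have e : (M w * (Rᴴ * prodOp (a t z) (b t z') * R)).trace =
          (tfam (Pc w) * prodOp (a t z) (b t z')).trace := by
        calc (M w * (Rᴴ * prodOp (a t z) (b t z') * R)).trace
            = (Q * (tfam (Pc w) * ((R * Q)ᴴ * prodOp (a t z) (b t z'))) * R).trace := by
              simp only [M, conjTranspose_mul, Matrix.mul_assoc]
          _ = _ := by
              rw [hRQ, conjTranspose_one, Matrix.one_mul, Matrix.trace_mul_comm,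
                ← Matrix.mul_assoc, hRQ, Matrix.one_mul]
      have e2 : ∀ y : Fin m → β, sfam (fun k => blk (Pc w k) fun p => V k p (y k)) =
          ((∏ k, compat (w k) (y k) : ℝ) : ℂ) • sfam (fun k => pieceA ρ lam (V k) (w k)) := by
        intro y
        ext i j
        simp [sfam, Pc, blk_piece (hV _), prod_mul_distrib]
      rw [e, trace_piece (Pc w) (a t z) (b t z') V (f z') (hb z')]
      simp only [e2, Matrix.smul_mul, trace_smul, smul_eq_mul, Complex.re_sum, ← mul_assoc,
        ← Complex.ofReal_mul, Complex.re_ofReal_mul, v, u, mul_sum]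
      exact sum_congr rfl (fun y _ => by ring)
    let s : (Fin m → Option β) → ℝ := fun w => ((M w * σ t).trace).re
    have hs : ∑ w, s w = (σ t).trace.re := by
      simp only [s, ← Complex.re_sum, ← Matrix.trace_sum, ← Matrix.sum_mul, hMsum, Matrix.one_mul]
    calc (σ t).trace.re * (1 - (Fintype.card K : ℝ)⁻¹)
        = ∑ w, s w * (1 - (Fintype.card K : ℝ)⁻¹) := by rw [← sum_mul, hs]
      _ ≤ ∑ w, ∑ z, ∑ z', |u w z * v w z' -
            if z = z' then s w * (Fintype.card K : ℝ)⁻¹ else 0| :=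
          sum_le_sum (fun w _ => product_far (u w) (v w) (hu w) (hv w) (s w))
      _ = ∑ z, ∑ z', ∑ w, |u w z * v w z' -
            if z = z' then s w * (Fintype.card K : ℝ)⁻¹ else 0| := by
          rw [sum_comm]; exact sum_congr rfl (fun z _ => sum_comm)
      _ ≤ _ := by
          refine sum_le_sum (fun z _ => sum_le_sum (fun z' _ => ?_))
          refine le_trans (le_of_eq (sum_congr rfl (fun w _ => ?_)))
            (measured_le_traceNorm M hM hMsum _)
          rw [Matrix.mul_sub, trace_sub, Complex.sub_re, hval]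
          congr 2
          by_cases h : z = z'
          · rw [if_pos h, if_pos h, Matrix.mul_smul, trace_smul, smul_eq_mul]
            rw [show ((Fintype.card K : ℂ))⁻¹ = (((Fintype.card K : ℝ)⁻¹ : ℝ) : ℂ) by push_cast; rfl,
              Complex.re_ofReal_mul, mul_comm]
          · simp [h]
  calc 1 - (Fintype.card K : ℝ)⁻¹
      = ∑ t, (σ t).trace.re * (1 - (Fintype.card K : ℝ)⁻¹) := by
        rw [← sum_mul, ← Complex.re_sum, hσ, Complex.one_re, one_mul]
    _ ≤ _ := sum_le_sum (fun t _ => key t)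

/-- The unnormalised Werner matrix. -/
def wMat (d : ℕ) (g : ℝ) : Matrix (Fin d × Fin d) (Fin d × Fin d) ℂ :=
  fun x y => (if x = y then 1 else 0) - (g : ℂ) * (if x.swap = y then 1 else 0)

/-- Swap the two factors of the copies in `S`. -/
def swapS {d m : ℕ} (S : Finset (Fin m)) :
    Equiv.Perm ((Fin m → Fin d) × (Fin m → Fin d)) :=
  Function.Involutive.toPerm
    (fun x => (fun k => if k ∈ S then x.2 k else x.1 k, fun k => if k ∈ S then x.1 k else x.2 k))
    (by
      intro x
      ext k <;> by_cases h : k ∈ S <;> simp [h])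

lemma swapS_fst {d m : ℕ} (S : Finset (Fin m)) (x : (Fin m → Fin d) × (Fin m → Fin d))
    (k : Fin m) : (swapS S x).1 k = if k ∈ S then x.2 k else x.1 k := rfl

lemma swapS_snd {d m : ℕ} (S : Finset (Fin m)) (x : (Fin m → Fin d) × (Fin m → Fin d))
    (k : Fin m) : (swapS S x).2 k = if k ∈ S then x.1 k else x.2 k := rfl

lemma power_wMat (d m : ℕ) (g : ℝ) (x y : (Fin m → Fin d) × (Fin m → Fin d)) :
    ∏ k, wMat d g (x.1 k, x.2 k) (y.1 k, y.2 k) =
      ∑ S ∈ (univ : Finset (Fin m)).powerset,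
        ((-g) ^ S.card : ℝ) * (if swapS S x = y then (1 : ℂ) else 0) := by
  have h : ∀ k, wMat d g (x.1 k, x.2 k) (y.1 k, y.2 k) =
      ((-g : ℝ) : ℂ) * (if (x.2 k, x.1 k) = (y.1 k, y.2 k) then 1 else 0) +
        (if (x.1 k, x.2 k) = (y.1 k, y.2 k) then 1 else 0) := by
    intro k
    simp only [wMat, Prod.swap, Prod.mk.injEq]
    push_cast
    ring
  rw [prod_congr rfl (fun k _ => h k), prod_add]
  refine sum_congr rfl (fun S _ => ?_)
  rw [prod_mul_distrib, prod_const, mul_assoc]
  push_cast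
  congr 1
  rw [prod_boole, prod_boole]
  by_cases hxy : swapS S x = y
  · subst hxy
    simp only [↓reduceIte]
    rw [if_pos, if_pos, mul_one]
    · intro k hk; simp [swapS_fst, swapS_snd, (mem_sdiff.1 hk).2]
    · intro k hk; simp [swapS_fst, swapS_snd, hk]
  · rw [if_neg hxy]
    by_cases h1 : ∀ k ∈ S, (x.2 k, x.1 k) = (y.1 k, y.2 k)
    · rw [if_pos h1, if_neg]
      · simp
      · intro h2
        apply hxy
        refine Prod.ext (funext fun k => ?_) (funext fun k => ?_)
        · rw [swapS_fst]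
          split
          · next hk => exact (Prod.ext_iff.1 (h1 k hk)).1
          · next hk => exact (Prod.ext_iff.1 (h2 k (mem_sdiff.2 ⟨mem_univ _, hk⟩))).1
        · rw [swapS_snd]
          split
          · next hk => exact (Prod.ext_iff.1 (h1 k hk)).2
          · next hk => exact (Prod.ext_iff.1 (h2 k (mem_sdiff.2 ⟨mem_univ _, hk⟩))).2
    · rw [if_neg h1]; simp

/-- Approximation of the tensor power by the identity on positive operators. -/
lemma werner_close {d m : ℕ} {g : ℝ} (hg : 0 ≤ g) (c : ℝ) (hc : 0 ≤ c)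
    {M : Matrix ((Fin m → Fin d) × (Fin m → Fin d)) ((Fin m → Fin d) × (Fin m → Fin d)) ℂ}
    (hM : M.PosSemidef) :
    |(tensorPower ((c : ℂ) • wMat d g) m * M).trace.re - c ^ m * M.trace.re| ≤
      c ^ m * ((1 + g) ^ m - 1) * M.trace.re := by
  have e : (tensorPower ((c : ℂ) • wMat d g) m * M).trace.re =
      c ^ m * ∑ S ∈ (univ : Finset (Fin m)).powerset,
        (-g) ^ S.card * ∑ x, (M (swapS S x) x).re := by
    simp only [Matrix.trace, Matrix.diag, Matrix.mul_apply, tensorPower, Matrix.smul_apply,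
      smul_eq_mul, prod_mul_distrib, prod_const, card_univ, Fintype.card_fin, power_wMat,
      mul_sum, sum_mul]
    rw [Complex.re_sum, Finset.sum_comm (s := (univ : Finset (Fin m)).powerset)]
    refine sum_congr rfl (fun x _ => ?_)
    rw [Finset.sum_comm, Complex.re_sum]
    refine sum_congr rfl (fun S _ => ?_)
    simp [← Complex.ofReal_pow, mul_assoc, ite_mul, mul_ite]
  set φ : Finset (Fin m) → ℝ := fun S => ∑ x, (M (swapS S x) x).re
  have h0 : φ ∅ = M.trace.re := by
    simp [φ, swapS, Matrix.trace]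
  have hφ : ∀ S, |φ S| ≤ M.trace.re := fun S => psd_perm_trace hM (swapS S)
  have hb : ∑ S ∈ (univ : Finset (Fin m)).powerset, g ^ S.card = (1 + g) ^ m := by
    simpa [add_comm] using sum_pow_mul_eq_add_pow g 1 (univ : Finset (Fin m))
  rw [e, ← mul_sub, abs_mul, abs_of_nonneg (pow_nonneg hc m), mul_assoc]
  refine mul_le_mul_of_nonneg_left ?_ (pow_nonneg hc m)
  have hempty : (∅ : Finset (Fin m)) ∈ (univ : Finset (Fin m)).powerset := empty_mem_powerset _
  rw [← hb, ← add_sum_erase _ _ hempty, ← add_sum_erase _ _ hempty]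
  simp only [card_empty, pow_zero, one_mul, add_sub_cancel_left]
  change |φ ∅ + ∑ S ∈ _, (-g) ^ S.card * φ S - M.trace.re| ≤ _
  rw [h0, add_sub_cancel_left, sum_mul]
  refine (abs_sum_le_sum_abs _ _).trans (sum_le_sum (fun S _ => ?_))
  rw [abs_mul, abs_pow, abs_neg, abs_of_nonneg hg]
  exact mul_le_mul_of_nonneg_left (hφ S) (pow_nonneg hg _)

lemma wMat_psd (d : ℕ) {g : ℝ} (hg : 0 ≤ g) (hg1 : g ≤ 1) : (wMat d g).PosSemidef := by
  let F : Matrix (Fin d × Fin d) (Fin d × Fin d) ℂ :=
    Matrix.of fun x y => if x.swap = y then 1 else 0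
  have hFe : ∀ x y, F x y = if x.swap = y then 1 else 0 := fun _ _ => rfl
  have hFh : Fᴴ = F := by
    ext x y
    rw [conjTranspose_apply, hFe, hFe]
    by_cases h : x.swap = y
    · simp [← h]
    · rw [if_neg h, if_neg]
      · simp
      · intro h'; exact h (by rw [← h']; simp)
  have hFF : F * F = 1 := by
    ext x y
    rw [Matrix.mul_apply, Finset.sum_eq_single x.swap]
    · simp [hFe, Matrix.one_apply]
    · intro z _ hz; simp [hFe, Ne.symm hz]
    · simp
  have hw : wMat d g = ((1 - g : ℝ) : ℂ) • (1 : Matrix (Fin d × Fin d) (Fin d × Fin d) ℂ)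
      + ((g / 2 : ℝ) : ℂ) • ((1 - F)ᴴ * (1 - F)) := by
    rw [conjTranspose_sub, conjTranspose_one, hFh, sub_mul, mul_sub, mul_sub, hFF,
      Matrix.one_mul, Matrix.mul_one, Matrix.one_mul]
    ext x y
    simp only [wMat, Matrix.add_apply, Matrix.smul_apply, Matrix.sub_apply, hFe,
      Matrix.one_apply, smul_eq_mul]
    push_cast
    ring
  rw [hw]
  refine Matrix.PosSemidef.add (Matrix.PosSemidef.one.smul ?_)
    ((Matrix.posSemidef_conjTranspose_mul_self _).smul ?_)
  · exact_mod_cast sub_nonneg.2 hg1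
  · exact_mod_cast (by positivity : (0:ℝ) ≤ g / 2)

lemma sum_diag (d : ℕ) (g : ℂ) :
    ∑ x : Fin d, ∑ y : Fin d, (if y = x ∧ x = y then g else 0) = (d : ℂ) * g := by
  have h : ∀ x y : Fin d, (y = x ∧ x = y) ↔ y = x := fun x y => ⟨fun h => h.1, fun h => ⟨h, h.symm⟩⟩
  simp [h]

lemma wMat_trace (d : ℕ) (g : ℝ) : (wMat d g).trace = ((d ^ 2 - g * d : ℝ) : ℂ) := by
  simp [Matrix.trace, wMat, sum_sub_distrib, Fintype.sum_prod_type, Prod.swap, sum_diag]
  ring

lemma mul_sum_two {α β : Type} [Fintype α] [Fintype β] (c : ℂ) (f : α → β → ℂ) :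
    c * ∑ i, ∑ j, f i j = ∑ i, ∑ j, c * f i j := by
  simp only [mul_sum]

/-- The witness `tr (swap ·)`. -/
def swapVal {d : ℕ} (ρ : Matrix (Fin d × Fin d) (Fin d × Fin d) ℂ) : ℝ :=
  (∑ i, ∑ j, ρ (j, i) (i, j)).re

lemma swapVal_sep {d : ℕ} {ρ : Matrix (Fin d × Fin d) (Fin d × Fin d) ℂ} (h : IsSep ρ) :
    0 ≤ swapVal ρ := by
  obtain ⟨r, w, α, β, hw, -, hst, hρ⟩ := h
  have hpos : ∀ k, 0 ≤ ((α k * β k).trace).re := by
    intro k
    obtain ⟨X, hX⟩ : ∃ X, α k = Xᴴ * X := by
      open scoped MatrixOrder in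
      obtain ⟨X, hX⟩ := CStarAlgebra.nonneg_iff_eq_star_mul_self.1 (hst k).1.1.nonneg
      exact ⟨X, hX⟩
    rw [hX, Matrix.mul_assoc, Matrix.trace_mul_comm]
    exact (Complex.nonneg_iff.1 ((hst k).2.1.mul_mul_conjTranspose_same X).trace_nonneg).1
  have e : swapVal ρ = ∑ k, w k * ((α k * β k).trace).re := by
    simp only [swapVal, hρ]
    rw [show (∑ i, ∑ j, ∑ k, (w k : ℂ) * (α k j i * β k i j)) =
      ∑ k, (w k : ℂ) * (α k * β k).trace from ?_]
    · simp [Complex.re_sum]
    · simp only [Matrix.trace, Matrix.diag, Matrix.mul_apply, mul_sum]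
      rw [sum_comm]
      refine (sum_congr rfl fun j _ => sum_comm).trans ?_
      exact sum_comm
  rw [e]
  exact sum_nonneg (fun k _ => mul_nonneg (hw k) (hpos k))


lemma wMat_herm (d : ℕ) (g : ℝ) : (wMat d g).IsHermitian := by
  ext x y
  simp only [conjTranspose_apply, wMat]
  rcases x with ⟨x1, x2⟩; rcases y with ⟨y1, y2⟩
  simp [apply_ite (starRingEnd ℂ), Prod.swap, Prod.ext_iff, eq_comm, and_comm]

lemma power_herm {d : ℕ} {τ : Matrix (Fin d × Fin d) (Fin d × Fin d) ℂ} (h : τ.IsHermitian)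
    (L : ℕ) : (tensorPower τ L).IsHermitian := by
  rw [tensorPower_eq]
  show (tfam _)ᴴ = _
  rw [tfam_conj]
  simp only [h.eq]

lemma not_sep_werner {d : ℕ} {g c : ℝ} (hc : 0 < c) (hd : 0 < d) (hgd : 1 < g * d) :
    ¬ IsSep ((c : ℂ) • wMat d g) := by
  intro hsep
  have h := swapVal_sep hsep
  have e : swapVal ((c : ℂ) • wMat d g) = c * ((d:ℝ) - g * (d:ℝ) ^ 2) := by
    simp only [swapVal, Matrix.smul_apply, wMat, Prod.swap, Prod.mk.injEq, smul_eq_mul]
    rw [← mul_sum_two]
    rw [show (∑ i : Fin d, ∑ j : Fin d, ((if j = i ∧ i = j then (1:ℂ) else 0) -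
        (g:ℂ) * (if True then 1 else 0))) = (d:ℂ) - (g:ℂ) * (d:ℂ) ^ 2 from ?_]
    · simp [← Complex.ofReal_natCast, ← Complex.ofReal_pow]
    · simp only [sum_sub_distrib, sum_diag]
      simp [sq]
      ring
  rw [e] at h
  have hd' : (0:ℝ) < d := by exact_mod_cast hd
  nlinarith [nonneg_of_mul_nonneg_right h hc, mul_lt_mul_of_pos_left hgd hd']

lemma werner_state {d : ℕ} {g : ℝ} (hg : 0 ≤ g) (hg1 : g ≤ 1) (hd : 0 < (d:ℝ) ^ 2 - g * d) :
    IsState ((((((d:ℝ) ^ 2 - g * d)⁻¹ : ℝ)) : ℂ) • wMat d g) := by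
  refine ⟨(wMat_psd d hg hg1).smul ?_, ?_⟩
  · exact_mod_cast (inv_pos.2 hd).le
  · rw [trace_smul, wMat_trace, smul_eq_mul, ← Complex.ofReal_mul,
      inv_mul_cancel₀ hd.ne', Complex.ofReal_one]

/-- Bob's measurements are single-copy bases: every Werner state with `1/d < g ≤ 1/2`. -/
lemma werner_blk {d : ℕ} {g c : ℝ} (hg : 0 ≤ g) (hg1 : g ≤ 1 / 2) (hc : 0 ≤ c)
    (u : Fin d → ℂ) (hu : star u ⬝ᵥ u = 1) :
    (((2 * (c * (1 - g)) : ℝ) : ℂ) • 1 - blk ((c : ℂ) • wMat d g) u).PosSemidef := by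
  have e : blk ((c : ℂ) • wMat d g) u =
      (c : ℂ) • 1 - ((c * g : ℝ) : ℂ) • Matrix.vecMulVec u (star u) := by
    ext i j
    have h0 := congrFun (congrFun (blk_smul_one (α := Fin d) (1 : ℂ) hu) i) j
    simp only [blk, one_smul, Matrix.one_apply, Prod.mk.injEq] at h0
    simp only [blk, Matrix.smul_apply, wMat, Matrix.sub_apply, smul_eq_mul, Prod.swap,
      Prod.mk.injEq, Matrix.one_apply, Matrix.vecMulVec_apply, Pi.star_apply, mul_sub, sub_mul,
      sum_sub_distrib]
    rw [← h0]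
    simp [ite_and, mul_sum, mul_ite, ite_mul, Finset.sum_ite_eq', Finset.sum_ite_eq]
    split_ifs
    · refine congrArg₂ (· - ·) (sum_congr rfl (fun x _ => ?_)) ?_ <;> ring
    · ring
  have e' : ((2 * (c * (1 - g)) : ℝ) : ℂ) • (1 : Matrix (Fin d) (Fin d) ℂ) -
      blk ((c : ℂ) • wMat d g) u = ((c * (1 - 2 * g) : ℝ) : ℂ) • 1 +
        ((c * g : ℝ) : ℂ) • Matrix.vecMulVec u (star u) := by
    rw [e]
    ext i j
    simp only [Matrix.sub_apply, Matrix.add_apply, Matrix.smul_apply, smul_eq_mul]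
    push_cast
    ring
  rw [e']
  refine (Matrix.PosSemidef.one.smul ?_).add
    ((Matrix.posSemidef_vecMulVec_self_star u).smul ?_)
  · exact_mod_cast mul_nonneg hc (by linarith : (0:ℝ) ≤ 1 - 2 * g)
  · exact_mod_cast mul_nonneg hc hg

lemma werner_low {d : ℕ} {g c : ℝ} (hg : 0 ≤ g) (hc : 0 ≤ c) :
    ((c : ℂ) • wMat d g - ((c * (1 - g) : ℝ) : ℂ) • 1).PosSemidef := by
  have h := ((wMat_psd d zero_le_one le_rfl).smul
    (show (0:ℂ) ≤ ((c * g : ℝ) : ℂ) by exact_mod_cast mul_nonneg hc hg))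
  refine (congrArg Matrix.PosSemidef ?_).mp h
  ext x y
  simp [wMat, Matrix.one_apply]
  split_ifs <;> ring

/-- Quadratic-form bound for a power of a Werner matrix. -/
lemma power_form {d L : ℕ} {g c : ℝ} (hg : 0 ≤ g) (hc : 0 ≤ c)
    (x : ((Fin L → Fin d) × (Fin L → Fin d)) → ℂ) :
    |(star x ⬝ᵥ (tensorPower ((c : ℂ) • wMat d g) L *ᵥ x)).re - c ^ L * (star x ⬝ᵥ x).re| ≤
      c ^ L * ((1 + g) ^ L - 1) * (star x ⬝ᵥ x).re := by
  have h := werner_close (m := L) hg c hc (Matrix.posSemidef_vecMulVec_self_star x)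
  have e1 : ∀ A : Matrix ((Fin L → Fin d) × (Fin L → Fin d)) ((Fin L → Fin d) × (Fin L → Fin d)) ℂ,
      (A * Matrix.vecMulVec x (star x)).trace = star x ⬝ᵥ (A *ᵥ x) := by
    intro A
    rw [Matrix.mul_vecMulVec, Matrix.trace_vecMulVec, dotProduct_comm]
  rwa [e1, Matrix.trace_vecMulVec, dotProduct_comm x (star x)] at h

lemma power_bounds {d L : ℕ} {g c : ℝ} (hg : 0 ≤ g) (hc : 0 ≤ c) (hgL : (1 + g) ^ L ≤ 4 / 3) :
    let lam : ℝ := c ^ L * (2 - (1 + g) ^ L)
    (tensorPower ((c : ℂ) • wMat d g) L - (lam : ℂ) • 1).PosSemidef ∧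
    (((2 * lam : ℝ) : ℂ) • 1 - tensorPower ((c : ℂ) • wMat d g) L).PosSemidef := by
  intro lam
  have hτ : (tensorPower ((c : ℂ) • wMat d g) L).IsHermitian :=
    power_herm (by
      show ((c : ℂ) • wMat d g)ᴴ = _
      rw [conjTranspose_smul, (wMat_herm d g).eq, Complex.star_def, Complex.conj_ofReal]) L
  have hsc : ∀ r : ℝ,
      ((r : ℂ) • (1 : Matrix ((Fin L → Fin d) × (Fin L → Fin d)) _ ℂ)).IsHermitian := by
    intro r
    show (_)ᴴ = _
    rw [conjTranspose_smul, conjTranspose_one, Complex.star_def, Complex.conj_ofReal]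
  have hb : ∀ x : ((Fin L → Fin d) × (Fin L → Fin d)) → ℂ,
      lam * (star x ⬝ᵥ x).re ≤ (star x ⬝ᵥ (tensorPower ((c : ℂ) • wMat d g) L *ᵥ x)).re ∧
      (star x ⬝ᵥ (tensorPower ((c : ℂ) • wMat d g) L *ᵥ x)).re ≤ 2 * lam * (star x ⬝ᵥ x).re := by
    intro x
    have h := abs_le.1 (power_form (L := L) hg hc x)
    have hx : 0 ≤ c ^ L * (star x ⬝ᵥ x).re :=
      mul_nonneg (pow_nonneg hc L) (Complex.nonneg_iff.1 (dotProduct_star_self_nonneg x)).1
    constructor
    · simp only [lam]; nlinarith [h.1]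
    · simp only [lam]; nlinarith [h.2, mul_nonneg hx (sub_nonneg.2 hgL)]
  constructor
  · refine Matrix.PosSemidef.of_dotProduct_mulVec_nonneg (hτ.sub (hsc _)) (fun x => ?_)
    refine Complex.nonneg_iff.2 ⟨?_, ((hτ.sub (hsc _)).im_star_dotProduct_mulVec_self x).symm⟩
    have := (hb x).1
    simp [-Complex.coe_smul, Matrix.sub_mulVec, Matrix.smul_mulVec, dotProduct_sub, dotProduct_smul]
    linarith
  · refine Matrix.PosSemidef.of_dotProduct_mulVec_nonneg ((hsc _).sub hτ) (fun x => ?_)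
    refine Complex.nonneg_iff.2 ⟨?_, (((hsc _).sub hτ).im_star_dotProduct_mulVec_self x).symm⟩
    have := (hb x).2
    simp [-Complex.coe_smul, Matrix.sub_mulVec, Matrix.smul_mulVec, dotProduct_sub, dotProduct_smul]
    linarith

/-- Entangled states from which no key is obtained, from any number of copies, when Bob measures
single copies, or blocks of `L` copies, in bases known from the transcript. -/
theorem result :
    (∀ (d : ℕ) (g : ℝ), 2 ≤ d → 1 < g * d → g ≤ 1 / 2 →
      let ρ : Matrix (Fin d × Fin d) (Fin d × Fin d) ℂ :=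
        ((((d:ℝ) ^ 2 - g * d)⁻¹ : ℝ) : ℂ) • wMat d g
      IsState ρ ∧ ¬ IsSep ρ ∧
      ∀ (m ℓ : ℕ) (T : Type) [Fintype T]
        (a b : T → (Fin ℓ → Bool) → Matrix (Fin m → Fin d) (Fin m → Fin d) ℂ),
        IsProtocol a b → IsBasisMeasurement b →
        ∀ (R : Matrix ((Fin m → Fin d) × (Fin m → Fin d)) ((Fin m → Fin d) × (Fin m → Fin d)) ℂ),
          R * Rᴴ = tensorPower ρ m →
        ∀ σ : T → Matrix ((Fin m → Fin d) × (Fin m → Fin d)) ((Fin m → Fin d) × (Fin m → Fin d)) ℂ,
          (∀ t, (σ t).PosSemidef) → (∑ t, (σ t).trace = 1) →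
            1 - (2 ^ ℓ : ℝ)⁻¹ ≤ keyError a b R σ) ∧
    (∀ L : ℕ, ∃ (d : ℕ) (ρ : Matrix (Fin d × Fin d) (Fin d × Fin d) ℂ),
      IsState ρ ∧ ¬ IsSep ρ ∧
      ∀ (m ℓ : ℕ) (T : Type) [Fintype T]
        (a b : T → (Fin ℓ → Bool) →
          Matrix (Fin m → Fin L → Fin d) (Fin m → Fin L → Fin d) ℂ),
        IsProtocol a b → IsBasisMeasurement b →
        ∀ (R : Matrix ((Fin m → Fin L → Fin d) × (Fin m → Fin L → Fin d))
            ((Fin m → Fin L → Fin d) × (Fin m → Fin L → Fin d)) ℂ),
          R * Rᴴ = tensorPower (tensorPower ρ L) m →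
        ∀ σ : T → Matrix ((Fin m → Fin L → Fin d) × (Fin m → Fin L → Fin d))
            ((Fin m → Fin L → Fin d) × (Fin m → Fin L → Fin d)) ℂ,
          (∀ t, (σ t).PosSemidef) → (∑ t, (σ t).trace = 1) →
            1 - (2 ^ ℓ : ℝ)⁻¹ ≤ keyError a b R σ) := by
  refine ⟨?_, ?_⟩
  · intro d g hd hgd hg2 ρ
    have hd' : (2:ℝ) ≤ d := by exact_mod_cast hd
    have hg : 0 < g := by
      by_contra h
      nlinarith [mul_nonpos_of_nonpos_of_nonneg (not_lt.1 h) (by linarith : (0:ℝ) ≤ d)]
    have hZ : 0 < (d:ℝ) ^ 2 - g * d := by nlinarith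
    have hc := inv_pos.2 hZ
    refine ⟨werner_state hg.le (by linarith) hZ, not_sep_werner hc (by omega) hgd, ?_⟩
    intro m ℓ T _ a b hP hB R hR σ _ hσ
    have := key_error_ge ρ _ (mul_pos hc (by linarith : (0:ℝ) < 1 - g))
      (werner_low hg.le hc.le) (fun u hu => werner_blk hg.le hg2 hc.le u hu)
      a b hP hB R hR σ hσ
    simpa using this
  · intro L
    have hlim : Filter.Tendsto (fun x : ℝ => (1 + 2 * x) ^ L) (nhds 0) (nhds 1) := by
      have : ContinuousAt (fun x : ℝ => (1 + 2 * x) ^ L) 0 := by fun_prop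
      simpa using this.tendsto
    have hd := (hlim.comp (tendsto_natCast_atTop_atTop.inv_tendsto_atTop (𝕜 := ℝ))).eventually
      (eventually_le_nhds (show (1:ℝ) < 4 / 3 by norm_num))
    obtain ⟨d, hdlt, hd3⟩ := (hd.and (Filter.eventually_ge_atTop 3)).exists
    have hd3' : (3:ℝ) ≤ d := by exact_mod_cast hd3
    have hdpos : (0:ℝ) < d := by linarith
    set g : ℝ := 2 / d with hg
    have hgd : g * d = 2 := by rw [hg]; field_simp
    have hg0 : 0 ≤ g := by positivity
    have hg1 : g ≤ 1 := by rw [hg, div_le_one hdpos]; linarith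
    have hgL : (1 + g) ^ L ≤ 4 / 3 := by
      simp only [Function.comp_apply, Pi.inv_apply] at hdlt
      rwa [hg, div_eq_mul_inv]
    have hZ : 0 < (d:ℝ) ^ 2 - g * d := by nlinarith
    have hc := inv_pos.2 hZ
    refine ⟨d, _, werner_state hg0 hg1 hZ, not_sep_werner hc (by omega) (by linarith), ?_⟩
    intro m ℓ T _ a b hP hB R hR σ _ hσ
    obtain ⟨hb1, hb2⟩ := power_bounds (d := d) (L := L) hg0 hc.le hgL
    have hlam : 0 < ((d:ℝ) ^ 2 - g * d)⁻¹ ^ L * (2 - (1 + g) ^ L) :=
      mul_pos (pow_pos hc L) (by linarith)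
    have := key_error_ge _ _ hlam hb1
      (fun u hu => by
        have := blk_psd hb2 u
        rwa [blk_sub, blk_smul_one _ hu] at this)
      a b hP hB R hR σ hσ
    simpa using this

end Vale.Agent.Results.P372.IndividualMeasurements
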